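import Mathlib
import Vale.Agent.Lib.P141.Defs
import Vale.Agent.Lib.P141.Criterion

namespace Vale.Agent.Results.P141.KakeyaCriterion

open Vale.Agent.Lib.P141

/-- A transference criterion. Let `P` be a finite set of pairs `(x, t)` of integers, each
standing for the four-term progression `x, x - t, x - 2t, x - 3t`. Suppose the first terms `x`
are pairwise distinct modulo an integer `B ≥ 2`, and the second, third and fourth terms take at
most `M₁`, `M₂`, `M₃` values. If `X` is the number of first terms and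
`B * M₁^(1/p₁) * M₂^(1/p₂) * M₃^(1/p₃) < X^(1/r)`, then the trilinear Hilbert transform is
not bounded at the Hölder tuple `(p₁, p₂, p₃, r)`. -/
theorem result :
    ∀ (B : ℤ) (P : Finset (ℤ × ℤ)) (M₁ M₂ M₃ : ℕ) (p₁ p₂ p₃ r : ENNReal),
      2 ≤ B →
      (∀ d ∈ P, ∀ d' ∈ P, d.1 ≡ d'.1 [ZMOD B] → d.1 = d'.1) →
      (P.image (fun q => q.1 - q.2)).card ≤ M₁ →
      (P.image (fun q => q.1 - 2 * q.2)).card ≤ M₂ →
      (P.image (fun q => q.1 - 3 * q.2)).card ≤ M₃ →
      IsHolderTuple p₁ p₂ p₃ r →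
      (B : ℝ) * ((M₁ : ℝ) ^ (p₁⁻¹).toReal * (M₂ : ℝ) ^ (p₂⁻¹).toReal * (M₃ : ℝ) ^ (p₃⁻¹).toReal)
        < ((P.image Prod.fst).card : ℝ) ^ (r⁻¹).toReal →
      ¬ BoundedAt p₁ p₂ p₃ r :=
  unbounded_criterion

end Vale.Agent.Results.P141.KakeyaCriterion
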