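import Mathlib
import Vale.Agent.Lib.P141.Defs
import Vale.Agent.Lib.P141.Corner

namespace Vale.Agent.Results.P141.UnboundedCorner

open Vale.Agent.Lib.P141

/-- The trilinear Hilbert transform (slopes 1, 2, 3) is not bounded at any Hölder tuple
`(p₁, p₂, p₃, r)` with `r < 1 - log 5 / log 17` (about `0.4319`), that is, with
`1/p₁ + 1/p₂ + 1/p₃ > log 17 / log (17/5)` (about `2.315`). -/
theorem result :
    ∀ p₁ p₂ p₃ r : ENNReal, IsHolderTuple p₁ p₂ p₃ r →
      r < ENNReal.ofReal (1 - Real.log 5 / Real.log 17) → ¬ BoundedAt p₁ p₂ p₃ r :=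
  unbounded_corner

end Vale.Agent.Results.P141.UnboundedCorner
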