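import Mathlib
import Vale.Agent.Lib.P141.Defs
import Vale.Agent.Lib.P141.RegionMain

namespace Vale.Agent.Results.P141.UnboundedRegion

open Vale.Agent.Lib.P141

/-- Unboundedness of the trilinear Hilbert transform (slopes 1, 2, 3) on an explicit region of
Hölder tuples. Write `aᵢ = 1/pᵢ` and `1/r = a₁ + a₂ + a₃`.

(1) `T` is not bounded at a Hölder tuple as soon as one of
`17 < (17/5)^(1/r)`, `16 < 4^(a₁+a₂) (16/7)^(a₃)`, `16 < (16/7)^(a₁) 4^(a₂+a₃)`,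
`9 < 3^(a₁+a₃) (9/5)^(a₂)` holds.

(2) In particular `T` is not bounded at a Hölder tuple with `r < 1 - log 5 / log 17`, or with
`1/r > 2 + 1/(2 pₖ)` for some `k`.

(3) Consequently there are Hölder tuples with `r` arbitrarily close to `1/2` at which `T` is
not bounded. -/
theorem result :
    (∀ p₁ p₂ p₃ r : ENNReal, IsHolderTuple p₁ p₂ p₃ r →
      ((17 : ℝ) < (17 / 5) ^ (r⁻¹).toReal ∨
        (16 : ℝ) < 4 ^ ((p₁⁻¹).toReal + (p₂⁻¹).toReal) * (16 / 7) ^ (p₃⁻¹).toReal ∨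
        (16 : ℝ) < (16 / 7) ^ (p₁⁻¹).toReal * 4 ^ ((p₂⁻¹).toReal + (p₃⁻¹).toReal) ∨
        (9 : ℝ) < 3 ^ ((p₁⁻¹).toReal + (p₃⁻¹).toReal) * (9 / 5) ^ (p₂⁻¹).toReal) →
      ¬ BoundedAt p₁ p₂ p₃ r) ∧
    (∀ p₁ p₂ p₃ r : ENNReal, IsHolderTuple p₁ p₂ p₃ r →
      (r < ENNReal.ofReal (1 - Real.log 5 / Real.log 17) ∨
        2 + (p₁⁻¹).toReal / 2 < (r⁻¹).toReal ∨
        2 + (p₂⁻¹).toReal / 2 < (r⁻¹).toReal ∨
        2 + (p₃⁻¹).toReal / 2 < (r⁻¹).toReal) →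
      ¬ BoundedAt p₁ p₂ p₃ r) ∧
    (∀ r₀ : ℝ, r₀ < 1 / 2 → ∃ p₁ p₂ p₃ r : ENNReal, IsHolderTuple p₁ p₂ p₃ r ∧
      ENNReal.ofReal r₀ < r ∧ ¬ BoundedAt p₁ p₂ p₃ r) :=
  ⟨unbounded_region, unbounded_simple, unbounded_near_half⟩

end Vale.Agent.Results.P141.UnboundedRegion
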