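import Mathlib
import Vale.Agent.Lib.P141.Defs
import Vale.Agent.Lib.P141.WDefs
import Vale.Agent.Lib.P141.RegionMain
import Vale.Agent.Lib.P141.WExplicit

namespace Vale.Agent.Results.P141.WeightedRegion

open Vale.Agent.Lib.P141

/-- Unboundedness of the trilinear Hilbert transform `T` (slopes 1, 2, 3) from weighted
configurations of four-term progressions. Write `aᵢ = 1/pᵢ` and `1/r = a₁ + a₂ + a₃`.

(1) Entropy criterion. Let `P` be a finite set of pairs `(x, t)` of integers, each standing for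
the progression `x, x - t, x - 2t, x - 3t`, with positive integer weights `k`; suppose that
within `P` distinct first terms `x` are incongruent modulo `B ≥ 2`, and distinct differences `t`
are incongruent modulo `B`. Let `N` be the total weight and `mⱼ(a)` the total weight of the
progressions with `x - j t = a`. If
`N log B < ∑ k(x,t) (a₁ log (m₁(x-t)/m₀(x)) + a₂ log (m₂(x-2t)/m₀(x)) + a₃ log (m₃(x-3t)/m₀(x))
+ log (m₀(x)/k(x,t)))`, then `T` is not bounded at the Hölder tuple `(p₁, p₂, p₃, r)`.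

(2) `T` is not bounded at any Hölder tuple with `r < 37/80`, or with `1/r > 2 + 1/(2 pₖ)` for
some `k`.

(3) For every `r₀ < 1/2` there is a Hölder tuple with `r > r₀` at which `T` is not bounded. -/
theorem result :
    (∀ (B : ℤ) (P : Finset (ℤ × ℤ)) (k : ℤ × ℤ → ℕ) (p₁ p₂ p₃ r : ENNReal),
      2 ≤ B →
      (∀ d ∈ P, 0 < k d) →
      (∀ d ∈ P, ∀ d' ∈ P, d.1 ≡ d'.1 [ZMOD B] → d.1 = d'.1) →
      (∀ d ∈ P, ∀ d' ∈ P, d.2 ≡ d'.2 [ZMOD B] → d.2 = d'.2) →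
      IsHolderTuple p₁ p₂ p₃ r →
      ((∑ d ∈ P, k d : ℕ) : ℝ) * Real.log (B : ℝ) < ∑ d ∈ P, (k d : ℝ) *
        ((p₁⁻¹).toReal * Real.log
            ((fiberWeight P k 1 (d.1 - 1 * d.2) : ℝ) / (fiberWeight P k 0 d.1 : ℝ))
          + (p₂⁻¹).toReal * Real.log
            ((fiberWeight P k 2 (d.1 - 2 * d.2) : ℝ) / (fiberWeight P k 0 d.1 : ℝ))
          + (p₃⁻¹).toReal * Real.log
            ((fiberWeight P k 3 (d.1 - 3 * d.2) : ℝ) / (fiberWeight P k 0 d.1 : ℝ))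
          + Real.log ((fiberWeight P k 0 d.1 : ℝ) / (k d : ℝ))) →
      ¬ BoundedAt p₁ p₂ p₃ r) ∧
    (∀ p₁ p₂ p₃ r : ENNReal, IsHolderTuple p₁ p₂ p₃ r →
      (r.toReal < 37 / 80 ∨
        2 + (p₁⁻¹).toReal / 2 < (r⁻¹).toReal ∨
        2 + (p₂⁻¹).toReal / 2 < (r⁻¹).toReal ∨
        2 + (p₃⁻¹).toReal / 2 < (r⁻¹).toReal) →
      ¬ BoundedAt p₁ p₂ p₃ r) ∧
    (∀ r₀ : ℝ, r₀ < 1 / 2 → ∃ p₁ p₂ p₃ r : ENNReal, IsHolderTuple p₁ p₂ p₃ r ∧
      ENNReal.ofReal r₀ < r ∧ ¬ BoundedAt p₁ p₂ p₃ r) := by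
  refine ⟨?_, ?_, unbounded_near_half⟩
  · intro B P k p₁ p₂ p₃ r hB hk hx ht hH hent
    exact unbounded_of_entropy B hB P k hk hx ht p₁ p₂ p₃ r hH hent
  · intro p₁ p₂ p₃ r hH h
    rcases h with h | h
    · exact unbounded_below p₁ p₂ p₃ r hH h
    · exact unbounded_simple p₁ p₂ p₃ r hH (Or.inr h)

end Vale.Agent.Results.P141.WeightedRegion
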